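import Vale.Agent.P309.Main
import Vale.Agent.P309.Cover
import Vale.Agent.P309.Upper

/-!
Memory-sample tradeoff for noiseless Gaussian linear regression, with the least horizon up to
constants: infinite below memory of order `d log (1 / ε)`, of order `d log (1 / ε)` from memory of
order `d log (d / ε)` up to any multiple of `d ^ 2`.
-/

namespace Vale.Agent.Results.P309.MemorySampleTradeoff

open Vale.Agent.P309

theorem result :
    (∀ c : ℝ, 0 < c → ∃ c' : ℝ, 0 < c' ∧ ∃ ε₀ : ℝ, 0 < ε₀ ∧ ∃ d₀ : ℕ, ∀ d : ℕ, d₀ ≤ d →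
      ∀ ε : ℝ, 0 < ε → ε ≤ ε₀ → ∀ M T : ℕ, (M : ℝ) ≤ c * (d : ℝ) ^ 2 →
        ∀ A : Protocol d M T, A.Succeeds ε → c' * d * Real.log (1 / ε) ≤ T) ∧
    (∃ c' : ℝ, 0 < c' ∧ ∃ ε₀ : ℝ, 0 < ε₀ ∧ ∃ d₀ : ℕ, ∀ d : ℕ, d₀ ≤ d →
      ∀ ε : ℝ, 0 < ε → ε ≤ ε₀ → ∀ M T : ℕ, ∀ A : Protocol d M T, A.Succeeds ε →
        c' * d * Real.log (1 / ε) ≤ T * (1 + (M : ℝ) / (d : ℝ) ^ 2)) ∧
    (∀ d : ℕ, 2 ≤ d → ∀ ε : ℝ, 0 < ε → ε ≤ 1 / 16 → ∀ M : ℕ,
      9 * d * Real.log (d / ε) ≤ M →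
        ∃ T : ℕ, (T : ℝ) ≤ 9 * d * Real.log (1 / ε) ∧ ∃ A : Protocol d M T,
          (∀ r t t' w, A.guess r t w = A.guess r t' w) ∧ A.Succeeds ε) ∧
    (∀ d : ℕ, 2 ≤ d → ∀ ε : ℝ, 0 < ε → ε ≤ Real.exp (-16) → ∀ M T : ℕ, ∀ A : Protocol d M T,
      (∀ r t t' w, A.guess r t w = A.guess r t' w) → A.Succeeds ε →
        (1 / 4 : ℝ) * d * Real.log (1 / ε) ≤ M) := by
  refine ⟨fun c hc => ⟨1 / (204800 * (1 + c)), by positivity, Real.exp (-5000), Real.exp_pos _,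
      256, fun d hd ε hε0 hε M T hM A hA => ?_⟩,
    ⟨1 / 204800, by norm_num, Real.exp (-5000), Real.exp_pos _, 256,
      fun d hd ε hε0 hε M T A hA => by
        have := protocol_tradeoff hd A hε0 hε hA
        linarith⟩,
    fun d hd ε hε0 hε M hM => by
      obtain ⟨T, hT, h⟩ := upper_bound hd hε0 hε (M := M) (by linarith)
      exact ⟨T, by linarith, h⟩,
    fun d hd ε hε0 hε M T A hout hA => A.memory_lower hd hout hε0 hε hA⟩
  have h := protocol_tradeoff hd A hε0 hε hA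
  have hd2 : (0 : ℝ) < (d : ℝ) ^ 2 := by
    have : (256 : ℝ) ≤ d := by exact_mod_cast hd
    positivity
  have hM' : (M : ℝ) / (d : ℝ) ^ 2 ≤ c := by rwa [div_le_iff₀ hd2]
  have h2 : (1 / 204800 : ℝ) * (d * Real.log (1 / ε)) ≤ T * (1 + c) :=
    h.trans (mul_le_mul_of_nonneg_left (by linarith) T.cast_nonneg)
  rw [show (1 / (204800 * (1 + c)) : ℝ) * d * Real.log (1 / ε)
    = (1 / 204800 * (d * Real.log (1 / ε))) / (1 + c) by field_simp, div_le_iff₀ (by linarith)]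
  exact h2

end Vale.Agent.Results.P309.MemorySampleTradeoff
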